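import Vale.Agent.P280.H83.Api3

/-! P280, plan N: package A05, general part. -/

open DirectSum Vale.Agent.P280.T Vale.Agent.P280.H127

namespace Vale.Agent.P280.H899

open Vale.Agent.P280.N

variable {r : ℕ} {R : Type} [CommRing R] [Algebra ℂ R]
  {𝒜 : ℕ × (Fin r → ℤ) → Submodule ℂ R} [GradedAlgebra 𝒜]

theorem dec_left {e j : ℕ × (Fin r → ℤ)} {u : R} (hu : u ∈ 𝒜 e) (b : R) :
    (decompose 𝒜 (u * b) (e + j) : R) = u * decompose 𝒜 b j :=
  DirectSum.coe_decompose_mul_add_of_left_mem 𝒜 hu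

theorem dec_left_not {e i : ℕ × (Fin r → ℤ)} {u : R} (hu : u ∈ 𝒜 e) (h : ∀ j, e + j ≠ i) (b : R) :
    (decompose 𝒜 (u * b) i : R) = 0 := by
  refine hom_ind' 𝒜 (P := fun b => (decompose 𝒜 (u * b) i : R) = 0) ?_ ?_ ?_ b
  · rw [mul_zero, decompose_zero]; rfl
  · intro x y hx hy
    rw [mul_add, decompose_add, DirectSum.add_apply, Submodule.coe_add, hx, hy, add_zero]
  · intro j x hx
    exact decompose_of_mem_ne 𝒜 (SetLike.mul_mem_graded hu hx) (h j)

/-- homogeneous coefficients -/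
theorem span_hom {n : ℕ} {u : Fin n → R} {e : Fin n → ℕ × (Fin r → ℤ)} (hu : ∀ i, u i ∈ 𝒜 (e i))
    {x : R} (hx : x ∈ Ideal.span (Set.range u)) {i : ℕ × (Fin r → ℤ)} (hxi : x ∈ 𝒜 i) :
    ∃ b : Fin n → R, (∀ j, (∃ k, e j + k = i ∧ b j ∈ 𝒜 k) ∨ b j = 0) ∧ x = ∑ j, u j * b j := by
  classical
  rw [Ideal.mem_span_range_iff_exists_fun] at hx
  obtain ⟨c, hc⟩ := hx
  refine ⟨fun j => if h : ∃ k, e j + k = i then (decompose 𝒜 (c j) h.choose : R) else 0, ?_, ?_⟩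
  · intro j
    by_cases h : ∃ k, e j + k = i
    · left
      refine ⟨h.choose, h.choose_spec, ?_⟩
      beta_reduce
      rw [dif_pos h]
      exact (decompose 𝒜 (c j) h.choose).2
    · right
      beta_reduce
      rw [dif_neg h]
  · have h1 : x = (decompose 𝒜 x i : R) := (decompose_of_mem_same 𝒜 hxi).symm
    rw [h1, ← hc, decompose_sum, DFinsupp.finsetSum_apply, AddSubmonoidClass.coe_finsetSum]
    refine Finset.sum_congr rfl fun j _ => ?_
    rw [mul_comm]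
    beta_reduce
    by_cases h : ∃ k, e j + k = i
    · rw [dif_pos h]
      have h2 := dec_left (j := h.choose) (hu j) (c j)
      rw [h.choose_spec] at h2
      exact h2
    · rw [dif_neg h, mul_zero]
      exact dec_left_not (hu j) (fun k hk => h ⟨k, hk⟩) _

/-- the homogeneous ideal of the point below `q` -/
def pI (𝒜 : ℕ × (Fin r → ℤ) → Submodule ℂ R) (q : R →ₐ[ℂ] ℂ) : Ideal R :=
  Ideal.span {h | SetLike.IsHomogeneousElem 𝒜 h ∧ q h = 0}

theorem mem_pI {q : R →ₐ[ℂ] ℂ} {x : R} : x ∈ pI 𝒜 q ↔ ∀ i, q (decompose 𝒜 x i : R) = 0 := by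
  classical
  constructor
  · intro hx i
    have h1 : (pI 𝒜 q).IsHomogeneous 𝒜 := Ideal.homogeneous_span 𝒜 _ fun h hh => hh.1
    have h2 : (decompose 𝒜 x i : R) ∈ pI 𝒜 q := h1 i hx
    have h3 : pI 𝒜 q ≤ RingHom.ker q := Ideal.span_le.2 fun h hh => hh.2
    exact h3 h2
  · intro h
    rw [← DirectSum.sum_support_decompose 𝒜 x]
    exact Ideal.sum_mem _ fun i _ => Ideal.subset_span ⟨⟨i, (decompose 𝒜 x i).2⟩, h i⟩

omit [GradedAlgebra 𝒜] in
theorem pI_le (q : R →ₐ[ℂ] ℂ) : pI 𝒜 q ≤ mx q := Ideal.span_le.2 fun _ hh => hh.2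

/-- `f - 1` is not a zero divisor modulo the homogeneous ideal of a point -/
theorem mem_pI_of_mul {q : R →ₐ[ℂ] ℂ} {ν : Fin r → ℤ} {f : R} (hf : f ∈ 𝒜 (1, ν))
    {t : R} (ht : t * (f - 1) ∈ pI 𝒜 q) : t ∈ pI 𝒜 q := by
  rw [mem_pI] at ht ⊢
  have key : ∀ i, q (decompose 𝒜 (f * t) i : R) = q (decompose 𝒜 t i : R) := by
    intro i
    have h1 := ht i
    have h2 : t * (f - 1) = f * t - t := by ring
    rw [h2, decompose_sub, DirectSum.sub_apply, Submodule.coe_sub, map_sub, sub_eq_zero] at h1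
    exact h1
  have main : ∀ (d : ℕ) (m : Fin r → ℤ), q (decompose 𝒜 t (d, m) : R) = 0 := by
    intro d
    induction d with
    | zero =>
      intro m
      rw [← key, dec_left_not hf, map_zero]
      rintro ⟨j, m'⟩ h
      have := congrArg Prod.fst h
      simp at this
    | succ d ih =>
      intro m
      have h1 : ((1, ν) : ℕ × (Fin r → ℤ)) + (d, m - ν) = (d + 1, m) := by
        rw [Prod.mk_add_mk]
        congr 1
        · omega
        · abel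
      rw [← key, ← h1, dec_left hf, map_mul, ih, mul_zero]
  rintro ⟨d, m⟩
  exact main d m

/-- the homogeneous ideal of a point is generated, near the point, by any homogeneous elements
which together with `f - 1` generate the maximal ideal modulo its square -/
theorem exists_r [IsNoetherianRing R] {q : R →ₐ[ℂ] ℂ} {ν : Fin r → ℤ} {f : R} (hf : f ∈ 𝒜 (1, ν))
    (hf1 : q f = 1) {n : ℕ} {u : Fin n → R} (hu : ∀ i, u i ∈ pI 𝒜 q)
    (h : mx q ≤ (Ideal.span (Set.range u) ⊔ Ideal.span {f - 1}) ⊔ mx q • mx q) :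
    ∃ s : R, q s = 1 ∧ ∀ x ∈ pI 𝒜 q, s * x ∈ Ideal.span (Set.range u) := by
  set J := Ideal.span (Set.range u) with hJ
  have hJP : J ≤ pI 𝒜 q := Ideal.span_le.2 (by rintro _ ⟨i, rfl⟩; exact hu i)
  obtain ⟨s, hs, hs'⟩ := Submodule.exists_sub_one_mem_and_smul_le_of_fg_of_le_sup (I := mx q)
    (N := J ⊔ Ideal.span {f - 1}) (N' := mx q) (P := mx q) (IsNoetherian.noetherian _) le_rfl h
  have h1 : pI 𝒜 q ≤ J ⊔ mx q • pI 𝒜 q := by
    intro x hx
    have h2 : s * x ∈ J ⊔ Ideal.span {f - 1} :=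
      hs' (Submodule.smul_mem_pointwise_smul x s _ (pI_le q hx))
    obtain ⟨j, hj, t, ht, e⟩ := Submodule.mem_sup.1 h2
    obtain ⟨t', rfl⟩ := Ideal.mem_span_singleton'.1 ht
    have h3 : t' ∈ pI 𝒜 q := by
      refine mem_pI_of_mul hf ?_
      have : t' * (f - 1) = s * x - j := by rw [← e]; ring
      rw [this]
      exact Ideal.sub_mem _ (Ideal.mul_mem_left _ _ hx) (hJP hj)
    have h4 : x = j + ((f - 1) * t' + (-(s - 1)) * x) := by
      have : s * x = j + t' * (f - 1) := e.symm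
      linear_combination this
    rw [h4]
    refine Submodule.add_mem_sup hj (Submodule.add_mem _ ?_ ?_)
    · exact Submodule.smul_mem_smul (mem_mx.2 (by rw [map_sub, hf1, map_one, sub_self])) h3
    · exact Submodule.smul_mem_smul ((mx q).neg_mem hs) hx
  obtain ⟨s', hs1, hs2⟩ := Submodule.exists_sub_one_mem_and_smul_le_of_fg_of_le_sup (I := mx q)
    (N := J) (N' := pI 𝒜 q) (P := pI 𝒜 q) (IsNoetherian.noetherian _) le_rfl h1
  refine ⟨s', ?_, fun x hx => hs2 (Submodule.smul_mem_pointwise_smul x s' _ hx)⟩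
  rw [mem_mx, map_sub, map_one] at hs1
  exact sub_eq_zero.1 hs1

/-- the same with a homogeneous denominator -/
theorem exists_r' [IsDomain R] [IsNoetherianRing R] {q : R →ₐ[ℂ] ℂ} {ν : Fin r → ℤ} (hfix : IsFixed 𝒜 q ν)
    {f : R} (hf : f ∈ 𝒜 (1, ν)) (hf1 : q f = 1) {n : ℕ} {u : Fin n → R}
    {e : Fin n → ℕ × (Fin r → ℤ)} (hu : ∀ i, u i ∈ 𝒜 (e i)) (hu0 : ∀ i, q (u i) = 0)
    (h : mx q ≤ (Ideal.span (Set.range u) ⊔ Ideal.span {f - 1}) ⊔ mx q • mx q) :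
    ∃ k : ℕ, ∃ s ∈ 𝒜 (k, k • ν), q s ≠ 0 ∧ ∀ i, ∀ x ∈ 𝒜 i, q x = 0 →
      s * x ∈ Ideal.span (Set.range u) := by
  have hu' : ∀ i, u i ∈ pI 𝒜 q := fun i => Ideal.subset_span ⟨⟨e i, hu i⟩, hu0 i⟩
  obtain ⟨s, hs, hs'⟩ := exists_r hf hf1 hu' h
  obtain ⟨⟨k, m⟩, hk⟩ := exists_comp_ne (𝒜 := 𝒜) (q := q) (s := s) (by rw [hs]; exact one_ne_zero)
  have hm : m = k • ν := hfix k m _ (decompose 𝒜 s (k, m)).2 hk
  subst hm
  refine ⟨k, _, (decompose 𝒜 s (k, k • ν)).2, hk, fun i x hx hx0 => ?_⟩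
  have h1 := hs' x (Ideal.subset_span ⟨⟨i, hx⟩, hx0⟩)
  have h2 : (Ideal.span (Set.range u)).IsHomogeneous 𝒜 :=
    Ideal.homogeneous_span 𝒜 _ (by rintro _ ⟨j, rfl⟩; exact ⟨e j, hu j⟩)
  have h3 : (decompose 𝒜 (s * x) ((k, k • ν) + i) : R) ∈ Ideal.span (Set.range u) := h2 _ h1
  rwa [DirectSum.coe_decompose_mul_add_of_right_mem 𝒜 hx] at h3

/-- elements congruent modulo the square of the maximal ideal -/
theorem mod_sq {q : R →ₐ[ℂ] ℂ} {s x : R} (hs : q s = 1) (hx : q x = 0) :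
    x - s * x ∈ mx q • mx q := by
  have h : x - s * x = -(s - 1) * x := by ring
  rw [h]
  exact Submodule.smul_mem_smul
    ((mx q).neg_mem (mem_mx.2 (by rw [map_sub, hs, map_one, sub_self]))) (mem_mx.2 hx)

/-- expansion modulo the square of the maximal ideal -/
theorem exists_coef {Λ : Type} [AddCommGroup Λ] [DecidableEq Λ] {ℬ : Λ → Submodule ℂ R}
    [GradedAlgebra ℬ] {q : R →ₐ[ℂ] ℂ} {n : ℕ} {U : Fin n → R} {wt : Fin n → Λ}
    (G : Gens ℬ q U wt) {x : R} (hx : q x = 0) :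
    ∃ c : Fin n → ℂ, x - ∑ i, c i • U i ∈ mx q • mx q := by
  obtain ⟨s, _, hs1, hs⟩ := G.gen
  obtain ⟨t, ht⟩ := (Ideal.mem_span_range_iff_exists_fun).1 (hs x (mem_mx.2 hx))
  refine ⟨fun i => q (t i), ?_⟩
  have h1 : x - ∑ i, q (t i) • U i = (x - s * x) + ∑ i, (t i - algebraMap ℂ R (q (t i))) * U i := by
    rw [← ht]
    simp_rw [sub_mul, Algebra.smul_def]
    rw [Finset.sum_sub_distrib]
    ring
  rw [h1]
  refine Submodule.add_mem _ (mod_sq hs1 hx) (Submodule.sum_mem _ fun i _ => ?_)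
  refine Submodule.smul_mem_smul (mem_mx.2 ?_) (mem_mx.2 (G.zero i))
  rw [map_sub, AlgHom.commutes]
  exact sub_self _

theorem tan_sq {q : R →ₐ[ℂ] ℂ} {v : R →ₗ[ℂ] ℂ} (hv : IsTangent q v) {x : R}
    (hx : x ∈ mx q • mx q) : v x = 0 := by
  refine Submodule.smul_induction_on hx ?_ ?_
  · intro a ha b hb
    rw [smul_eq_mul, hv, mem_mx.1 ha, mem_mx.1 hb]
    ring
  · intro a b ha hb
    rw [map_add, ha, hb, add_zero]

end Vale.Agent.P280.H899
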