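import Vale.Agent.P280.H899.Norm
import Vale.Agent.P280.T.Ext2

/-!
Homogeneous rational fields at a fixed point: a homogeneous field which is regular at a fixed point
and kills the parameters of the possible weights is zero; expansions in fields of top weight.
-/

namespace Vale.Agent.P280.H899

open Matrix DirectSum Vale.Agent.P280.T Vale.Agent.P280.H127 Vale.Agent.P280.H93

set_option linter.unusedSectionVars false

variable {R : Type} [CommRing R] [IsDomain R] [Algebra ℂ R]
variable {K : Type} [Field K] [Algebra R K] [IsFractionRing R K] [Algebra ℂ K]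
  [IsScalarTower ℂ R K]
variable {Λ : Type} [AddCommGroup Λ] [DecidableEq Λ] {𝒜 : Λ → Submodule ℂ R} [GradedAlgebra 𝒜]

/-- `v` is a homogeneous rational field of weight `θ`. -/
def HRat (𝒜 : Λ → Submodule ℂ R) (θ : Λ) (v : Derivation ℂ R K) : Prop :=
  ∃ γ : Λ, ∃ g ∈ 𝒜 γ, g ≠ 0 ∧ ∀ k, ∀ h ∈ 𝒜 k, ∃ y ∈ 𝒜 (k + γ - θ),
    algebraMap R K g * v h = algebraMap R K y

theorem algebraMap_inj : Function.Injective (algebraMap R K) := IsFractionRing.injective R K

/-- the conductor of a homogeneous rational field is homogeneous -/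
theorem cnd_cp {θ : Λ} {v : Derivation ℂ R K} (hv : HRat 𝒜 θ v) {r : R} (hr : r ∈ cnd v)
    (i : Λ) : cp 𝒜 i r ∈ cnd v := by
  obtain ⟨γ, g, hg, hg0, hv⟩ := hv
  have hgK : algebraMap R K g ≠ 0 := fun h0 => hg0 (algebraMap_inj (K := K) (by rw [h0, map_zero]))
  -- in divisibility form
  have key : ∀ (x h y : R), algebraMap R K g * v h = algebraMap R K y →
      ((∃ z, algebraMap R K x * v h = algebraMap R K z) ↔ g ∣ x * y) := by
    intro x h y hy
    constructor
    · rintro ⟨z, hz⟩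
      refine ⟨z, algebraMap_inj (K := K) ?_⟩
      rw [map_mul, map_mul, ← hy, ← hz]
      ring
    · rintro ⟨z, hz⟩
      refine ⟨z, mul_left_cancel₀ hgK ?_⟩
      rw [← map_mul, ← hz, map_mul, ← hy]
      ring
  rw [mem_cnd] at hr ⊢
  intro h
  induction h using DirectSum.Decomposition.inductionOn 𝒜 with
  | zero => exact ⟨0, by rw [map_zero, map_zero, mul_zero]⟩
  | @homogeneous l a =>
    obtain ⟨y, hy, hy'⟩ := hv l a a.2
    rw [key _ _ _ hy']
    have h1 := (key r _ _ hy').1 (hr (a : R))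
    have h2 := dvd_component (𝒜 := 𝒜) hg h1 (i + (l + γ - θ))
    rwa [DirectSum.coe_decompose_mul_add_of_right_mem 𝒜 hy] at h2
  | add a b ha hb =>
    obtain ⟨y, hy⟩ := ha
    obtain ⟨z, hz⟩ := hb
    exact ⟨y + z, by rw [map_add, mul_add, map_add, hy, hz]⟩

/-- a homogeneous rational field regular at a fixed point is, up to a function of weight zero
which does not vanish there, a homogeneous derivation -/
theorem exists_der {θ : Λ} {v : Derivation ℂ R K} (hv : HRat 𝒜 θ v) {q : R →ₐ[ℂ] ℂ}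
    (hq : Fix 𝒜 q) (hreg : Reg q v) : ∃ s ∈ 𝒜 0, q s = 1 ∧ ∃ D : Derivation ℂ R R,
      (∀ h, algebraMap R K s * v h = algebraMap R K (D h)) ∧
      ∀ k, ∀ h ∈ 𝒜 k, D h ∈ 𝒜 (k - θ) := by
  obtain ⟨r, hr, hr0⟩ := reg_iff.1 hreg
  have h1 := cnd_cp hv hr 0
  have h2 : q (cp 𝒜 0 r) ≠ 0 := by rwa [hq.q_cp]
  set s : R := (q (cp 𝒜 0 r))⁻¹ • cp 𝒜 0 r with hs
  have hs0 : s ∈ 𝒜 0 := Submodule.smul_mem _ _ (cp_mem 𝒜 0 r)
  have hs1 : q s = 1 := by
    rw [hs, map_smul, smul_eq_mul, inv_mul_cancel₀ h2]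
  have hsc : s ∈ cnd v := by
    rw [hs, Algebra.smul_def]
    exact Ideal.mul_mem_left _ _ h1
  rw [mem_cnd] at hsc
  choose F hF using hsc
  have hL : ∀ (c : ℂ) (x : R), algebraMap R K (c • x) = c • algebraMap R K x := by
    intro c x
    rw [← Algebra.linearMap_apply, LinearMap.map_smul_of_tower, Algebra.linearMap_apply]
  let L : R →ₗ[ℂ] R :=
    { toFun := F
      map_add' := by
        intro x y
        apply algebraMap_inj (K := K)
        rw [map_add, ← hF, ← hF, ← hF, map_add, mul_add]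
      map_smul' := by
        intro c x
        apply algebraMap_inj (K := K)
        rw [RingHom.id_apply, hL, ← hF, ← hF, v.map_smul, mul_smul_comm] }
  have hLeib : ∀ a b : R, L (a * b) = a • L b + b • L a := by
    intro a b
    apply algebraMap_inj (K := K)
    change algebraMap R K (F (a * b)) = algebraMap R K (a * F b + b * F a)
    rw [map_add, map_mul, map_mul, ← hF, ← hF, ← hF, v.leibniz, Algebra.smul_def,
      Algebra.smul_def]
    ring
  refine ⟨s, hs0, hs1, Derivation.mk' L hLeib, hF, ?_⟩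
  intro k h hh
  obtain ⟨γ, g, hg, hg0, hv⟩ := hv
  obtain ⟨y, hy, hy'⟩ := hv k h hh
  have e : g * F h = s * y := by
    apply algebraMap_inj (K := K)
    rw [map_mul, map_mul, ← hF, ← hy']
    ring
  apply div_mem hg hg0
  change g * F h ∈ _
  rw [e]
  have := SetLike.mul_mem_graded hs0 hy
  have h3 : 0 + (k + γ - θ) = γ + (k - θ) := by abel
  rwa [h3] at this

/-- a derivation which kills local parameters is zero -/
theorem der_eq_zero [IsNoetherianRing R] {q : R →ₐ[ℂ] ℂ} {n : ℕ} {u : Fin n → R}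
    {wt : Fin n → Λ} (G : Gens 𝒜 q u wt) (D : Derivation ℂ R R) (h : ∀ i, D (u i) = 0) :
    ∀ x, D x = 0 := by
  obtain ⟨s', _, hs'1, hs'⟩ := G.gen
  obtain ⟨r, hr1, hr'⟩ := nakayama_step D.toLinearMap (fun a b => D.leibniz a b) hs'1 hs' G.zero
    (t := 1) (u0 := 0) (map_one q) (fun i => by
      change (0 : R) ∣ 1 * D (u i)
      rw [h i, mul_zero])
  intro x
  have h1 := hr' x
  rw [zero_dvd_iff] at h1
  rcases mul_eq_zero.1 h1 with h2 | h2
  · rw [h2, map_zero] at hr1
    exact absurd hr1 zero_ne_one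
  · exact h2

/-- the weights reached from a fixed point -/
def Mon {n : ℕ} (wt : Fin n → Λ) : AddSubmonoid Λ := AddSubmonoid.closure (Set.range wt)

/-- there are no functions of a weight which is not a sum of weights of the cotangent space -/
theorem eq_bot_of_notMem [IsNoetherianRing R] {q : R →ₐ[ℂ] ℂ} (hq : Fix 𝒜 q) {n : ℕ}
    {u : Fin n → R} {wt : Fin n → Λ} (G : Gens 𝒜 q u wt) {w : Λ} (hw : w ∉ Mon wt) :
    𝒜 w = ⊥ := by
  refine source hq G (C := {x | ∃ m ∈ Mon wt, x = w - m}) ?_ ?_ (w := w) ⟨0, zero_mem _, by simp⟩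
  · rintro ⟨m, hm, h⟩
    rw [eq_comm, sub_eq_zero] at h
    exact hw (h ▸ hm)
  · rintro x ⟨m, hm, rfl⟩ i
    exact ⟨m + wt i, add_mem hm (AddSubmonoid.subset_closure ⟨i, rfl⟩), by abel⟩

/-- **a homogeneous rational field, regular at a fixed point, which kills all the parameters whose
weights are possible, is zero** -/
theorem hrat_eq_zero [IsNoetherianRing R] {q : R →ₐ[ℂ] ℂ} (hq : Fix 𝒜 q) {n : ℕ}
    {u : Fin n → R} {wt : Fin n → Λ} (G : Gens 𝒜 q u wt) {θ : Λ} {v : Derivation ℂ R K}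
    (hv : HRat 𝒜 θ v) (hreg : Reg q v) (h : ∀ i, wt i - θ ∈ Mon wt → v (u i) = 0) : v = 0 := by
  obtain ⟨s, hs0, hs1, D, hD, hDw⟩ := exists_der hv hq hreg
  have hsne : algebraMap R K s ≠ 0 := by
    intro h0
    have h1 : s = 0 := algebraMap_inj (K := K) (by rw [h0, map_zero])
    rw [h1, map_zero] at hs1
    exact zero_ne_one hs1
  have h1 : ∀ i, D (u i) = 0 := by
    intro i
    by_cases hi : wt i - θ ∈ Mon wt
    · apply algebraMap_inj (K := K)
      rw [← hD, h i hi, mul_zero, map_zero]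
    · have h2 := hDw _ _ (G.hom i)
      rw [eq_bot_of_notMem hq G hi] at h2
      exact (Submodule.mem_bot ℂ).1 h2
  have h2 := der_eq_zero G D h1
  apply Derivation.ext
  intro x
  have h3 := hD x
  rw [h2 x, map_zero] at h3
  rcases mul_eq_zero.1 h3 with h4 | h4
  · exact absurd h4 hsne
  · exact h4

end Vale.Agent.P280.H899
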