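import Vale.Agent.P280.H93.Minors
import Vale.Agent.P280.H939.R1

/-!
Rational vector fields modulo independent global fields: near a point where the fields `w i` are
independent, regularity modulo the `w i` is regularity of one normalised field.
-/

namespace Vale.Agent.P280.H899

open Matrix

open Vale.Agent.P280.T Vale.Agent.P280.H93

set_option linter.unusedSectionVars false

variable {R : Type} [CommRing R] [IsDomain R] [Algebra ℂ R]
variable {K : Type} [Field K] [Algebra R K] [IsFractionRing R K] [Algebra ℂ K]
  [IsScalarTower ℂ R K]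

/-- a field of `Spec R` as a rational field -/
noncomputable def kd (w : Derivation ℂ R R) : Derivation ℂ R K :=
  (Algebra.linearMap R K).compDer w

theorem kd_apply (w : Derivation ℂ R R) (h : R) :
    (kd w : Derivation ℂ R K) h = algebraMap R K (w h) := rfl

/-- the rational field `v` is regular at `q` -/
def Reg (q : R →ₐ[ℂ] ℂ) (v : Derivation ℂ R K) : Prop :=
  ∃ r : R, q r ≠ 0 ∧ ∀ h, ∃ y, algebraMap R K r * v h = algebraMap R K y

/-- `v` minus a combination of the `w i` -/
noncomputable def sb {ι : Type} [Fintype ι] (v : Derivation ℂ R K) (g : ι → K)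
    (w : ι → Derivation ℂ R R) : Derivation ℂ R K :=
  v - ∑ i, g i • (kd (w i) : Derivation ℂ R K)

theorem sb_apply {ι : Type} [Fintype ι] (v : Derivation ℂ R K) (g : ι → K)
    (w : ι → Derivation ℂ R R) (h : R) :
    sb v g w h = v h - ∑ i, g i * algebraMap R K (w i h) := by
  unfold sb
  rw [Derivation.sub_apply]
  congr 1
  rw [← Derivation.coeFnAddMonoidHom_apply, map_sum, Finset.sum_apply]
  exact Finset.sum_congr rfl fun i _ => rfl

/-- `v` is regular at `q` modulo the `w i` -/
def RegMod {ι : Type} [Fintype ι] (q : R →ₐ[ℂ] ℂ) (w : ι → Derivation ℂ R R)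
    (v : Derivation ℂ R K) : Prop :=
  ∃ g : ι → K, Reg q (sb v g w)

section norm
variable {ι : Type} [Fintype ι] [DecidableEq ι]

/-- the normalised field: it kills the functions `h i` -/
theorem exists_norm (w : ι → Derivation ℂ R R) (h : ι → R) (hdet : (dmat w h).det ≠ 0)
    (v : Derivation ℂ R K) : ∃ g : ι → K, ∀ j, sb v g w (h j) = 0 := by
  have hd : algebraMap R K (dmat w h).det ≠ 0 := by
    intro h0
    exact hdet (IsFractionRing.injective R K (by rw [h0, map_zero]))
  let W : Matrix ι ι K := (dmat w h).map (algebraMap R K)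
  have hW : W.det = algebraMap R K (dmat w h).det := by
    rw [RingHom.map_det]
    rfl
  have hWu : IsUnit W.det := by
    rw [hW]
    exact hd.isUnit
  let b : ι → K := fun j => v (h j)
  refine ⟨fun i => ((W⁻¹)ᵀ.mulVec b) i, fun j => ?_⟩
  rw [sb_apply]
  have h1 : (Wᵀ.mulVec ((W⁻¹)ᵀ.mulVec b)) j = b j := by
    rw [Matrix.mulVec_mulVec, ← Matrix.transpose_mul, Matrix.nonsing_inv_mul W hWu,
      Matrix.transpose_one, Matrix.one_mulVec]
  have h2 : (Wᵀ.mulVec ((W⁻¹)ᵀ.mulVec b)) j =
      ∑ i, ((W⁻¹)ᵀ.mulVec b) i * algebraMap R K (w i (h j)) := by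
    rw [Matrix.mulVec, dotProduct]
    refine Finset.sum_congr rfl fun i _ => ?_
    rw [mul_comm]
    rfl
  rw [← h2, h1]
  exact sub_self _

/-- where the fields are independent, `v` is regular modulo them if and only if the normalised
field is regular -/
theorem regMod_iff (w : ι → Derivation ℂ R R) (h : ι → R) (v : Derivation ℂ R K) {g : ι → K}
    (hg : ∀ j, sb v g w (h j) = 0) {q : R →ₐ[ℂ] ℂ} (hq : q (dmat w h).det ≠ 0) :
    RegMod q w v ↔ Reg q (sb v g w) := by
  constructor
  · rintro ⟨g', r, hr, hr'⟩
    have hdet : (dmat w h).det ≠ 0 := by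
      intro h0
      rw [h0, map_zero] at hq
      exact hq rfl
    have hd : algebraMap R K (dmat w h).det ≠ 0 := by
      intro h0
      exact hdet (IsFractionRing.injective R K (by rw [h0, map_zero]))
    -- `(g' - g) W = - ρ(h)`
    choose y hy using hr'
    have e1 : ∀ j, ∑ i, (g i - g' i) * algebraMap R K (w i (h j)) = sb v g' w (h j) := by
      intro j
      have h1 := hg j
      rw [sb_apply] at h1 ⊢
      simp_rw [sub_mul]
      rw [Finset.sum_sub_distrib]
      linear_combination -h1
    -- Cramer
    have e2 : ∀ i, algebraMap R K (r * (dmat w h).det) * (g i - g' i) =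
        algebraMap R K (∑ j, y (h j) * (dmat w h).adjugate j i) := by
      intro i
      have h1 : ∑ j, (∑ l, (g l - g' l) * algebraMap R K (w l (h j))) *
          algebraMap R K ((dmat w h).adjugate j i) =
          (g i - g' i) * algebraMap R K (dmat w h).det := by
        have h2 : ∀ l, ∑ j, algebraMap R K (w l (h j)) * algebraMap R K ((dmat w h).adjugate j i) =
            if l = i then algebraMap R K (dmat w h).det else 0 := by
          intro l
          have h3 := congrFun (congrFun (Matrix.mul_adjugate (dmat w h)) l) i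
          rw [Matrix.mul_apply, Matrix.smul_apply, Matrix.one_apply] at h3
          simp_rw [← map_mul]
          rw [← map_sum]
          have h4 : ∑ x, w l (h x) * (dmat w h).adjugate x i =
            (dmat w h).det • (if l = i then 1 else 0) := h3
          rw [h4]
          split_ifs <;> simp
        calc ∑ j, (∑ l, (g l - g' l) * algebraMap R K (w l (h j))) *
              algebraMap R K ((dmat w h).adjugate j i)
            = ∑ l, (g l - g' l) * ∑ j, algebraMap R K (w l (h j)) *
                algebraMap R K ((dmat w h).adjugate j i) := by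
              simp_rw [Finset.sum_mul, Finset.mul_sum]
              rw [Finset.sum_comm]
              exact Finset.sum_congr rfl fun l _ => Finset.sum_congr rfl fun j _ => by ring
          _ = (g i - g' i) * algebraMap R K (dmat w h).det := by
              simp_rw [h2]
              simp
      rw [map_mul, mul_assoc, mul_comm (algebraMap R K (dmat w h).det), ← h1, Finset.mul_sum,
        map_sum]
      refine Finset.sum_congr rfl fun j _ => ?_
      rw [e1, ← mul_assoc, hy, map_mul]
    refine ⟨r * (dmat w h).det, by rw [map_mul]; exact mul_ne_zero hr hq, fun x => ?_⟩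
    refine ⟨(dmat w h).det * y x - ∑ i, (∑ j, y (h j) * (dmat w h).adjugate j i) * w i x, ?_⟩
    have e3 : sb v g w x = sb v g' w x - ∑ i, (g i - g' i) * algebraMap R K (w i x) := by
      rw [sb_apply, sb_apply]
      simp_rw [sub_mul]
      rw [Finset.sum_sub_distrib]
      ring
    rw [e3, mul_sub, Finset.mul_sum, map_sub, map_sum]
    congr 1
    · rw [map_mul, map_mul, mul_right_comm, hy, mul_comm]
    · refine Finset.sum_congr rfl fun i _ => ?_
      rw [← mul_assoc, e2, map_mul]
  · intro h1
    exact ⟨g, h1⟩

end norm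

/-- the conductor of a rational field -/
def cnd (v : Derivation ℂ R K) : Ideal R where
  carrier := {r | ∀ h, ∃ y, algebraMap R K r * v h = algebraMap R K y}
  zero_mem' := fun h => ⟨0, by rw [map_zero, zero_mul]⟩
  add_mem' := by
    intro a b ha hb h
    obtain ⟨y, hy⟩ := ha h
    obtain ⟨z, hz⟩ := hb h
    exact ⟨y + z, by rw [map_add, map_add, add_mul, hy, hz]⟩
  smul_mem' := by
    intro c a ha h
    obtain ⟨y, hy⟩ := ha h
    exact ⟨c * y, by rw [smul_eq_mul, map_mul, map_mul, mul_assoc, hy]⟩

theorem mem_cnd {v : Derivation ℂ R K} {r : R} :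
    r ∈ cnd v ↔ ∀ h, ∃ y, algebraMap R K r * v h = algebraMap R K y := Iff.rfl

theorem reg_iff {q : R →ₐ[ℂ] ℂ} {v : Derivation ℂ R K} :
    Reg q v ↔ ∃ r ∈ cnd v, q r ≠ 0 :=
  ⟨fun ⟨r, h1, h2⟩ => ⟨r, h2, h1⟩, fun ⟨r, h2, h1⟩ => ⟨r, h1, h2⟩⟩

/-- the polar locus has codimension one -/
theorem height_cnd [IsNoetherianRing R] [IsIntegrallyClosed R] (v : Derivation ℂ R K)
    {P : Ideal R} (hP : P ∈ (cnd v).minimalPrimes) : P.height ≤ 1 := by
  refine Vale.Agent.P280.H939.height_le_one_of_conductor (K := K) (D := fun h => v h)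
    (I := cnd v) ?_ hP
  intro r
  rw [mem_cnd]
  refine forall_congr' fun h => ?_
  constructor
  · rintro ⟨s, hs⟩
    exact ⟨s, hs.symm⟩
  · rintro ⟨s, hs⟩
    exact ⟨s, hs.symm⟩

end Vale.Agent.P280.H899
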