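import Vale.Agent.P280.H899.Kill
import Mathlib.Algebra.TrivSqZeroExt.Basic

/-!
Rational vector fields: extension to the fraction field and brackets with global fields.
-/

namespace Vale.Agent.P280.H899

open Vale.Agent.P280.T Vale.Agent.P280.H127 Vale.Agent.P280.H93

set_option linter.unusedSectionVars false

variable {R : Type} [CommRing R] [IsDomain R] [Algebra ℂ R]
variable {K : Type} [Field K] [Algebra R K] [IsFractionRing R K] [Algebra ℂ K]
  [IsScalarTower ℂ R K]

theorem exists_extK (v : Derivation ℂ R K) :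
    ∃ V : Derivation ℂ K K, ∀ a, V (algebraMap R K a) = v a := by
  let Φ₁ : R →+* TrivSqZeroExt K K :=
    { toFun := fun a => TrivSqZeroExt.inl (algebraMap R K a) + TrivSqZeroExt.inr (v a)
      map_one' := by
        apply TrivSqZeroExt.ext
        · simp
        · simp
      map_mul' := fun a b => by
        apply TrivSqZeroExt.ext
        · simp
        · have h := v.leibniz a b
          rw [Algebra.smul_def, Algebra.smul_def] at h
          simp only [TrivSqZeroExt.snd_add, TrivSqZeroExt.snd_inl, TrivSqZeroExt.snd_inr, zero_add,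
            TrivSqZeroExt.snd_mul, TrivSqZeroExt.fst_add, TrivSqZeroExt.fst_inl,
            TrivSqZeroExt.fst_inr, add_zero, smul_eq_mul, op_smul_eq_smul]
          exact h
      map_zero' := by
        apply TrivSqZeroExt.ext <;> simp
      map_add' := fun a b => by
        apply TrivSqZeroExt.ext <;> simp }
  let fst : TrivSqZeroExt K K →+* K := (TrivSqZeroExt.fstHom K K K : TrivSqZeroExt K K →+* K)
  have hfst : ∀ z, fst z = z.fst := fun _ => rfl
  have h1 : fst.comp Φ₁ = algebraMap R K := by
    refine RingHom.ext fun a => ?_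
    rw [RingHom.comp_apply, hfst]
    simp [Φ₁]
  have hunit : ∀ y : nonZeroDivisors R, IsUnit (Φ₁ y) := by
    intro y
    rw [TrivSqZeroExt.isUnit_iff_isUnit_fst]
    have h2 : (Φ₁ y).fst = algebraMap R K y := congrArg (fun f => f (y : R)) h1
    rw [h2]
    exact IsUnit.mk0 _ ((map_ne_zero_iff _ (IsFractionRing.injective R K)).2
      (nonZeroDivisors.ne_zero y.2))
  let Φ : K →+* TrivSqZeroExt K K := IsLocalization.lift (M := nonZeroDivisors R) hunit
  have hΦ : ∀ f, Φ (algebraMap R K f) = Φ₁ f := fun f => IsLocalization.lift_eq _ _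
  have h3 : fst.comp Φ = RingHom.id K := by
    refine IsLocalization.ringHom_ext (nonZeroDivisors R) ?_
    refine RingHom.ext fun f => ?_
    change fst (Φ (algebraMap R K f)) = algebraMap R K f
    rw [hΦ]
    exact congrArg (fun g => g f) h1
  have h4 : ∀ z, (Φ z).fst = z := fun z => congrArg (fun g => g z) h3
  have hk : ∀ r : ℂ, (Φ (algebraMap ℂ K r)) = TrivSqZeroExt.inl (algebraMap ℂ K r) := by
    intro r
    have e1 : algebraMap ℂ K r = algebraMap R K (algebraMap ℂ R r) := by
      rw [IsScalarTower.algebraMap_apply ℂ R K]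
    rw [e1, hΦ]
    apply TrivSqZeroExt.ext
    · simp [Φ₁]
    · simp [Φ₁]
  let Dl : K →ₗ[ℂ] K :=
    { toFun := fun z => (Φ z).snd
      map_add' := fun x y => by rw [map_add, TrivSqZeroExt.snd_add]
      map_smul' := fun r x => by
        rw [Algebra.smul_def, map_mul, hk, TrivSqZeroExt.snd_mul, TrivSqZeroExt.fst_inl,
          TrivSqZeroExt.snd_inl, smul_zero, add_zero, smul_eq_mul, RingHom.id_apply,
          Algebra.smul_def] }
  refine ⟨Derivation.mk' Dl fun x y => ?_, fun a => ?_⟩
  · change (Φ (x * y)).snd = x • (Φ y).snd + y • (Φ x).snd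
    rw [map_mul, TrivSqZeroExt.snd_mul, h4, h4, op_smul_eq_smul]
  · change (Φ (algebraMap R K a)).snd = _
    rw [hΦ]
    simp [Φ₁]

/-- the extension to the fraction field -/
noncomputable def xK (v : Derivation ℂ R K) : Derivation ℂ K K := (exists_extK v).choose

theorem xK_apply (v : Derivation ℂ R K) (a : R) : xK v (algebraMap R K a) = v a :=
  (exists_extK v).choose_spec a

/-- derivations of `K` are determined on `R` -/
theorem derK_ext {V W : Derivation ℂ K K}
    (h : ∀ a : R, V (algebraMap R K a) = W (algebraMap R K a)) : V = W := by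
  apply Derivation.ext
  intro x
  obtain ⟨a, b, hb, rfl⟩ := IsFractionRing.div_surjective (A := R) x
  have hb0 : algebraMap R K b ≠ 0 := by
    intro h0
    exact nonZeroDivisors.ne_zero hb (algebraMap_inj (K := K) (by rw [h0, map_zero]))
  have key : ∀ V : Derivation ℂ K K, V (algebraMap R K a / algebraMap R K b) =
      (algebraMap R K b * V (algebraMap R K a) - algebraMap R K a * V (algebraMap R K b)) /
        algebraMap R K b ^ 2 := by
    intro V
    have h1 := V.leibniz (algebraMap R K b) (algebraMap R K a / algebraMap R K b)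
    rw [mul_div_cancel₀ _ hb0, smul_eq_mul, smul_eq_mul] at h1
    rw [h1]
    field_simp
    ring
  rw [key V, key W, h, h]

/-- the bracket of a global field with a rational one -/
noncomputable def br (D : Derivation ℂ R R) (v : Derivation ℂ R K) : Derivation ℂ R K :=
  Derivation.mk'
    ((xK (kd D : Derivation ℂ R K)).toLinearMap ∘ₗ v.toLinearMap - v.toLinearMap ∘ₗ D.toLinearMap)
    (by
      intro a b
      change xK (kd D : Derivation ℂ R K) (v (a * b)) - v (D (a * b)) =
        a • (xK (kd D : Derivation ℂ R K) (v b) - v (D b)) +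
          b • (xK (kd D : Derivation ℂ R K) (v a) - v (D a))
      rw [v.leibniz, D.leibniz, map_add, map_add, smul_eq_mul, smul_eq_mul, v.leibniz, v.leibniz,
        Algebra.smul_def, Algebra.smul_def, Derivation.leibniz, Derivation.leibniz, xK_apply,
        xK_apply, kd_apply, kd_apply]
      simp only [Algebra.smul_def, Algebra.algebraMap_self, RingHom.id_apply]
      ring)

theorem br_apply (D : Derivation ℂ R R) (v : Derivation ℂ R K) (h : R) :
    br D v h = xK (kd D : Derivation ℂ R K) (v h) - v (D h) := rfl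

theorem br_add (D : Derivation ℂ R R) (v v' : Derivation ℂ R K) :
    br D (v + v') = br D v + br D v' := by
  apply Derivation.ext
  intro h
  simp only [br_apply, Derivation.add_apply, map_add]
  ring

theorem br_sub (D : Derivation ℂ R R) (v v' : Derivation ℂ R K) :
    br D (v - v') = br D v - br D v' := by
  apply Derivation.ext
  intro h
  simp only [br_apply, Derivation.sub_apply, map_sub]
  ring

theorem br_zero (D : Derivation ℂ R R) : br D (0 : Derivation ℂ R K) = 0 := by
  apply Derivation.ext
  intro h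
  simp only [br_apply, Derivation.zero_apply, map_zero]
  ring

theorem br_sum {ι : Type} (s : Finset ι) (D : Derivation ℂ R R) (v : ι → Derivation ℂ R K) :
    br D (∑ i ∈ s, v i) = ∑ i ∈ s, br D (v i) := by
  classical
  induction s using Finset.induction_on with
  | empty => simp [br_zero]
  | insert a s ha ih => rw [Finset.sum_insert ha, Finset.sum_insert ha, br_add, ih]

theorem br_smul (D : Derivation ℂ R R) (g : K) (v : Derivation ℂ R K) :
    br D (g • v) = xK (kd D : Derivation ℂ R K) g • v + g • br D v := by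
  apply Derivation.ext
  intro h
  simp only [br_apply, Derivation.add_apply, Derivation.smul_apply, smul_eq_mul,
    Derivation.leibniz]
  ring

/-- the bracket of two global fields -/
theorem br_kd (D E : Derivation ℂ R R) :
    br D (kd E : Derivation ℂ R K) = (kd ⁅D, E⁆ : Derivation ℂ R K) := by
  apply Derivation.ext
  intro h
  rw [br_apply, kd_apply, kd_apply, kd_apply, xK_apply, kd_apply, Derivation.commutator_apply,
    map_sub]

theorem kd_zero : (kd (0 : Derivation ℂ R R) : Derivation ℂ R K) = 0 := by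
  apply Derivation.ext
  intro h
  simp [kd_apply]

/-- the Jacobi identity -/
theorem br_br (D E : Derivation ℂ R R) (v : Derivation ℂ R K) :
    br D (br E v) - br E (br D v) = br ⁅D, E⁆ v := by
  have h1 : ⁅xK (kd D : Derivation ℂ R K), xK (kd E : Derivation ℂ R K)⁆ =
      xK (kd ⁅D, E⁆ : Derivation ℂ R K) := by
    apply derK_ext (R := R)
    intro a
    rw [Derivation.commutator_apply, xK_apply, xK_apply, xK_apply, kd_apply, kd_apply, kd_apply,
      xK_apply, xK_apply, kd_apply, kd_apply, Derivation.commutator_apply, map_sub]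
  apply Derivation.ext
  intro h
  have h2 := congrArg (fun V => V (v h)) h1
  simp only [Derivation.commutator_apply] at h2
  simp only [Derivation.sub_apply, br_apply, map_sub, Derivation.commutator_apply]
  rw [← h2]
  ring

/-- the bracket of a regular field with a global field is regular -/
theorem reg_br {q : R →ₐ[ℂ] ℂ} (D : Derivation ℂ R R) {v : Derivation ℂ R K} (hv : Reg q v) :
    Reg q (br D v) := by
  obtain ⟨r, hr, hr'⟩ := hv
  choose F hF using hr'
  refine ⟨r * r, by rw [map_mul]; exact mul_ne_zero hr hr, fun h => ?_⟩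
  refine ⟨r * D (F h) - F h * D r - r * F (D h), ?_⟩
  have hr0 : algebraMap R K r ≠ 0 := by
    intro h0
    have h1 : r = 0 := algebraMap_inj (K := K) (by rw [h0, map_zero])
    rw [h1, map_zero] at hr
    exact hr rfl
  have h1 := congrArg (xK (kd D : Derivation ℂ R K)) (hF h)
  rw [Derivation.leibniz, xK_apply, xK_apply, kd_apply, kd_apply, smul_eq_mul, smul_eq_mul] at h1
  rw [br_apply, map_sub, map_sub, map_mul, map_mul, map_mul, map_mul, ← h1, ← hF, ← hF]
  ring

theorem reg_add {q : R →ₐ[ℂ] ℂ} {v v' : Derivation ℂ R K} (hv : Reg q v) (hv' : Reg q v') :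
    Reg q (v + v') := by
  obtain ⟨r, hr, hr'⟩ := hv
  obtain ⟨s, hs, hs'⟩ := hv'
  refine ⟨r * s, by rw [map_mul]; exact mul_ne_zero hr hs, fun h => ?_⟩
  obtain ⟨y, hy⟩ := hr' h
  obtain ⟨z, hz⟩ := hs' h
  refine ⟨s * y + r * z, ?_⟩
  rw [Derivation.add_apply, map_mul, map_add, map_mul, map_mul, ← hy, ← hz]
  ring

/-- a function is regular at `q` -/
def RegF (q : R →ₐ[ℂ] ℂ) (g : K) : Prop := ∃ r y : R, q r ≠ 0 ∧ algebraMap R K r * g = algebraMap R K y

theorem reg_smul {q : R →ₐ[ℂ] ℂ} {g : K} {v : Derivation ℂ R K} (hg : RegF q g) (hv : Reg q v) :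
    Reg q (g • v) := by
  obtain ⟨r, y, hr, hr'⟩ := hg
  obtain ⟨s, hs, hs'⟩ := hv
  refine ⟨r * s, by rw [map_mul]; exact mul_ne_zero hr hs, fun h => ?_⟩
  obtain ⟨z, hz⟩ := hs' h
  refine ⟨y * z, ?_⟩
  rw [Derivation.smul_apply, smul_eq_mul, map_mul, map_mul, ← hr', ← hz]
  ring

theorem regF_add {q : R →ₐ[ℂ] ℂ} {g g' : K} (hg : RegF q g) (hg' : RegF q g') :
    RegF q (g + g') := by
  obtain ⟨r, y, hr, hr'⟩ := hg
  obtain ⟨s, z, hs, hs'⟩ := hg'
  refine ⟨r * s, s * y + r * z, by rw [map_mul]; exact mul_ne_zero hr hs, ?_⟩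
  rw [map_mul, map_add, map_mul, map_mul, ← hr', ← hs']
  ring

theorem regF_mul {q : R →ₐ[ℂ] ℂ} {g g' : K} (hg : RegF q g) (hg' : RegF q g') :
    RegF q (g * g') := by
  obtain ⟨r, y, hr, hr'⟩ := hg
  obtain ⟨s, z, hs, hs'⟩ := hg'
  refine ⟨r * s, y * z, by rw [map_mul]; exact mul_ne_zero hr hs, ?_⟩
  rw [map_mul, map_mul, ← hr', ← hs']
  ring

theorem regF_neg {q : R →ₐ[ℂ] ℂ} {g : K} (hg : RegF q g) : RegF q (-g) := by
  obtain ⟨r, y, hr, hr'⟩ := hg
  exact ⟨r, -y, hr, by rw [map_neg, ← hr']; ring⟩

theorem regF_map (q : R →ₐ[ℂ] ℂ) (a : R) : RegF q (algebraMap R K a) :=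
  ⟨1, a, by rw [map_one]; exact one_ne_zero, by rw [map_one, one_mul]⟩

theorem regF_zero (q : R →ₐ[ℂ] ℂ) : RegF q (0 : K) := by
  have := regF_map (K := K) q (0 : R)
  rwa [map_zero] at this

/-- derivatives of regular functions are regular -/
theorem regF_der {q : R →ₐ[ℂ] ℂ} (D : Derivation ℂ R R) {g : K} (hg : RegF q g) :
    RegF q (xK (kd D : Derivation ℂ R K) g) := by
  obtain ⟨r, y, hr, hr'⟩ := hg
  refine ⟨r * r, r * D y - y * D r, by rw [map_mul]; exact mul_ne_zero hr hr, ?_⟩
  have h1 := congrArg (xK (kd D : Derivation ℂ R K)) hr'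
  rw [Derivation.leibniz, xK_apply, xK_apply, kd_apply, kd_apply, smul_eq_mul, smul_eq_mul] at h1
  rw [map_sub, map_mul, map_mul, map_mul, ← h1, ← hr']
  ring

/-- the coefficients of a regular combination of fields independent at `q` are regular -/
theorem regF_of_comb {ι : Type} [Fintype ι] [DecidableEq ι] {q : R →ₐ[ℂ] ℂ}
    (w : ι → Derivation ℂ R R) (h : ι → R) (hq : q (dmat w h).det ≠ 0) (g : ι → K)
    (hreg : Reg q (∑ i, g i • (kd (w i) : Derivation ℂ R K))) (i : ι) : RegF q (g i) := by
  obtain ⟨r, hr, hr'⟩ := hreg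
  choose y hy using hr'
  refine ⟨r * (dmat w h).det, ∑ j, y (h j) * (dmat w h).adjugate j i,
    by rw [map_mul]; exact mul_ne_zero hr hq, ?_⟩
  have h0 : ∀ x, (∑ l, g l • (kd (w l) : Derivation ℂ R K)) x =
      ∑ l, g l * algebraMap R K (w l x) := by
    intro x
    rw [← Derivation.coeFnAddMonoidHom_apply, map_sum, Finset.sum_apply]
    exact Finset.sum_congr rfl fun i _ => rfl
  have h1 : ∑ j, (∑ l, g l * algebraMap R K (w l (h j))) *
      algebraMap R K ((dmat w h).adjugate j i) =
      g i * algebraMap R K (dmat w h).det := by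
    have h2 : ∀ l, ∑ j, algebraMap R K (w l (h j)) * algebraMap R K ((dmat w h).adjugate j i) =
        if l = i then algebraMap R K (dmat w h).det else 0 := by
      intro l
      have h3 := congrFun (congrFun (Matrix.mul_adjugate (dmat w h)) l) i
      rw [Matrix.mul_apply, Matrix.smul_apply, Matrix.one_apply] at h3
      simp_rw [← map_mul]
      rw [← map_sum]
      have h4 : ∑ x, w l (h x) * (dmat w h).adjugate x i =
        (dmat w h).det • (if l = i then 1 else 0) := h3
      rw [h4]
      split_ifs <;> simp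
    calc ∑ j, (∑ l, g l * algebraMap R K (w l (h j))) *
          algebraMap R K ((dmat w h).adjugate j i)
        = ∑ l, g l * ∑ j, algebraMap R K (w l (h j)) *
            algebraMap R K ((dmat w h).adjugate j i) := by
          simp_rw [Finset.sum_mul, Finset.mul_sum]
          rw [Finset.sum_comm]
          exact Finset.sum_congr rfl fun l _ => Finset.sum_congr rfl fun j _ => by ring
      _ = g i * algebraMap R K (dmat w h).det := by
          simp_rw [h2]
          simp
  rw [map_mul, mul_assoc, mul_comm (algebraMap R K (dmat w h).det), ← h1, Finset.mul_sum,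
    map_sum]
  refine Finset.sum_congr rfl fun j _ => ?_
  rw [← h0, ← mul_assoc, hy, map_mul]

end Vale.Agent.P280.H899
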