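import Vale.Agent.P280.H899.Brk

/-!
Weights of rational fields and rational functions.
-/

namespace Vale.Agent.P280.H899

open Matrix Vale.Agent.P280.T Vale.Agent.P280.H127 Vale.Agent.P280.H93

set_option linter.unusedSectionVars false

variable {R : Type} [CommRing R] [IsDomain R] [Algebra ℂ R]
variable {K : Type} [Field K] [Algebra R K] [IsFractionRing R K] [Algebra ℂ K]
  [IsScalarTower ℂ R K]
variable {Λ : Type} [AddCommGroup Λ] [DecidableEq Λ] {𝒜 : Λ → Submodule ℂ R} [GradedAlgebra 𝒜]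

theorem aM_ne {g : R} (hg : g ≠ 0) : algebraMap R K g ≠ 0 := fun h0 =>
  hg (algebraMap_inj (K := K) (by rw [h0, map_zero]))

/-- `g` is a homogeneous rational function of weight `a` -/
def HF (𝒜 : Λ → Submodule ℂ R) (a : Λ) (g : K) : Prop :=
  ∃ γ : Λ, ∃ s ∈ 𝒜 γ, s ≠ 0 ∧ ∃ y ∈ 𝒜 (γ + a), algebraMap R K s * g = algebraMap R K y

/-- `D` is a derivation of weight `χ` -/
def HD (𝒜 : Λ → Submodule ℂ R) (χ : Λ) (D : Derivation ℂ R R) : Prop :=
  ∀ k, ∀ h ∈ 𝒜 k, D h ∈ 𝒜 (k - χ)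

theorem hf_map {a : Λ} {y : R} (hy : y ∈ 𝒜 a) : HF 𝒜 a (algebraMap R K y) :=
  ⟨0, 1, SetLike.GradedOne.one_mem, one_ne_zero, y, by rwa [zero_add], by rw [map_one, one_mul]⟩

theorem hf_zero (a : Λ) : HF 𝒜 a (0 : K) := by
  have := hf_map (K := K) (Submodule.zero_mem (𝒜 a))
  rwa [map_zero] at this

theorem hf_add {a : Λ} {g g' : K} (hg : HF 𝒜 a g) (hg' : HF 𝒜 a g') : HF 𝒜 a (g + g') := by
  obtain ⟨γ, s, hs, hs0, y, hy, e⟩ := hg
  obtain ⟨γ', s', hs', hs0', y', hy', e'⟩ := hg'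
  refine ⟨γ + γ', s * s', SetLike.mul_mem_graded hs hs', mul_ne_zero hs0 hs0',
    s' * y + s * y', Submodule.add_mem _ ?_ ?_, ?_⟩
  · have := SetLike.mul_mem_graded hs' hy
    rwa [show γ' + (γ + a) = γ + γ' + a by abel] at this
  · have := SetLike.mul_mem_graded hs hy'
    rwa [show γ + (γ' + a) = γ + γ' + a by abel] at this
  · rw [map_mul, map_add, map_mul, map_mul, ← e, ← e']
    ring

theorem hf_neg {a : Λ} {g : K} (hg : HF 𝒜 a g) : HF 𝒜 a (-g) := by
  obtain ⟨γ, s, hs, hs0, y, hy, e⟩ := hg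
  exact ⟨γ, s, hs, hs0, -y, Submodule.neg_mem _ hy, by rw [map_neg, ← e]; ring⟩

theorem hf_mul {a b : Λ} {g g' : K} (hg : HF 𝒜 a g) (hg' : HF 𝒜 b g') :
    HF 𝒜 (a + b) (g * g') := by
  obtain ⟨γ, s, hs, hs0, y, hy, e⟩ := hg
  obtain ⟨γ', s', hs', hs0', y', hy', e'⟩ := hg'
  refine ⟨γ + γ', s * s', SetLike.mul_mem_graded hs hs', mul_ne_zero hs0 hs0',
    y * y', ?_, ?_⟩
  · have := SetLike.mul_mem_graded hy hy'
    rwa [show γ + a + (γ' + b) = γ + γ' + (a + b) by abel] at this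
  · rw [map_mul, map_mul, ← e, ← e']
    ring

theorem hf_sum {ι : Type} (s : Finset ι) {a : Λ} {g : ι → K} (hg : ∀ i ∈ s, HF 𝒜 a (g i)) :
    HF 𝒜 a (∑ i ∈ s, g i) := by
  classical
  induction s using Finset.induction_on with
  | empty => rw [Finset.sum_empty]; exact hf_zero a
  | insert b s hb ih =>
    rw [Finset.sum_insert hb]
    exact hf_add (hg b (Finset.mem_insert_self b s))
      (ih fun i hi => hg i (Finset.mem_insert_of_mem hi))

/-- the quotient of homogeneous elements -/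
theorem hf_div {a b : Λ} {x y : R} (hx : x ∈ 𝒜 a) (hy : y ∈ 𝒜 b) (hy0 : y ≠ 0) :
    HF 𝒜 (a - b) (algebraMap R K x / algebraMap R K y) :=
  ⟨b, y, hy, hy0, x, by rwa [show b + (a - b) = a by abel], mul_div_cancel₀ _ (aM_ne hy0)⟩

/-- values of a homogeneous rational field -/
theorem hf_apply {θ : Λ} {v : Derivation ℂ R K} (hv : HRat 𝒜 θ v) {k : Λ} {h : R}
    (hh : h ∈ 𝒜 k) : HF 𝒜 (k - θ) (v h) := by
  obtain ⟨γ, g, hg, hg0, hv⟩ := hv
  obtain ⟨y, hy, e⟩ := hv k h hh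
  exact ⟨γ, g, hg, hg0, y, by rwa [show γ + (k - θ) = k + γ - θ by abel], e⟩

theorem hrat_kd {χ : Λ} {D : Derivation ℂ R R} (hD : HD 𝒜 χ D) :
    HRat 𝒜 χ (kd D : Derivation ℂ R K) := by
  refine ⟨0, 1, SetLike.GradedOne.one_mem, one_ne_zero, fun k h hh => ⟨D h, ?_, ?_⟩⟩
  · rw [add_zero]; exact hD k h hh
  · rw [map_one, one_mul, kd_apply]

theorem hrat_add {θ : Λ} {v v' : Derivation ℂ R K} (hv : HRat 𝒜 θ v) (hv' : HRat 𝒜 θ v') :
    HRat 𝒜 θ (v + v') := by
  obtain ⟨γ, s, hs, hs0, e⟩ := hv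
  obtain ⟨γ', s', hs', hs0', e'⟩ := hv'
  refine ⟨γ + γ', s * s', SetLike.mul_mem_graded hs hs', mul_ne_zero hs0 hs0', ?_⟩
  intro k h hh
  obtain ⟨y, hy, e⟩ := e k h hh
  obtain ⟨y', hy', e'⟩ := e' k h hh
  refine ⟨s' * y + s * y', Submodule.add_mem _ ?_ ?_, ?_⟩
  · have := SetLike.mul_mem_graded hs' hy
    rwa [show γ' + (k + γ - θ) = k + (γ + γ') - θ by abel] at this
  · have := SetLike.mul_mem_graded hs hy'
    rwa [show γ + (k + γ' - θ) = k + (γ + γ') - θ by abel] at this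
  · rw [Derivation.add_apply, map_mul, map_add, map_mul, map_mul, ← e, ← e']
    ring

theorem hrat_zero (θ : Λ) : HRat 𝒜 θ (0 : Derivation ℂ R K) :=
  ⟨0, 1, SetLike.GradedOne.one_mem, one_ne_zero, fun k h _ =>
    ⟨0, Submodule.zero_mem _, by rw [Derivation.zero_apply, mul_zero, map_zero]⟩⟩

theorem hrat_smul {θ a : Λ} {g : K} {v : Derivation ℂ R K} (hg : HF 𝒜 a g) (hv : HRat 𝒜 θ v) :
    HRat 𝒜 (θ - a) (g • v) := by
  obtain ⟨γ, s, hs, hs0, y, hy, e⟩ := hg
  obtain ⟨γ', s', hs', hs0', e'⟩ := hv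
  refine ⟨γ + γ', s * s', SetLike.mul_mem_graded hs hs', mul_ne_zero hs0 hs0', ?_⟩
  intro k h hh
  obtain ⟨y', hy', e'⟩ := e' k h hh
  refine ⟨y * y', ?_, ?_⟩
  · have := SetLike.mul_mem_graded hy hy'
    rwa [show γ + a + (k + γ' - θ) = k + (γ + γ') - (θ - a) by abel] at this
  · rw [Derivation.smul_apply, smul_eq_mul, map_mul, map_mul, ← e, ← e']
    ring

theorem hrat_neg {θ : Λ} {v : Derivation ℂ R K} (hv : HRat 𝒜 θ v) : HRat 𝒜 θ (-v) := by
  obtain ⟨γ, s, hs, hs0, e⟩ := hv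
  refine ⟨γ, s, hs, hs0, fun k h hh => ?_⟩
  obtain ⟨y, hy, e⟩ := e k h hh
  exact ⟨-y, Submodule.neg_mem _ hy, by rw [Derivation.neg_apply, map_neg, ← e]; ring⟩

theorem hrat_sub {θ : Λ} {v v' : Derivation ℂ R K} (hv : HRat 𝒜 θ v) (hv' : HRat 𝒜 θ v') :
    HRat 𝒜 θ (v - v') := by
  rw [sub_eq_add_neg]
  exact hrat_add hv (hrat_neg hv')

theorem hrat_sum {ι : Type} (s : Finset ι) {θ : Λ} {v : ι → Derivation ℂ R K}
    (hv : ∀ i ∈ s, HRat 𝒜 θ (v i)) : HRat 𝒜 θ (∑ i ∈ s, v i) := by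
  classical
  induction s using Finset.induction_on with
  | empty => rw [Finset.sum_empty]; exact hrat_zero θ
  | insert b s hb ih =>
    rw [Finset.sum_insert hb]
    exact hrat_add (hv b (Finset.mem_insert_self b s))
      (ih fun i hi => hv i (Finset.mem_insert_of_mem hi))

/-- `v - ∑ g i • w i` is homogeneous if the `g i` have the right weights -/
theorem hrat_sb {ι : Type} [Fintype ι] {θ : Λ} {v : Derivation ℂ R K} (hv : HRat 𝒜 θ v)
    {χ : ι → Λ} {w : ι → Derivation ℂ R R} (hw : ∀ i, HD 𝒜 (χ i) (w i)) {g : ι → K}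
    (hg : ∀ i, HF 𝒜 (χ i - θ) (g i)) : HRat 𝒜 θ (sb v g w) := by
  refine hrat_sub hv (hrat_sum _ fun i _ => ?_)
  have := hrat_smul (hg i) (hrat_kd (K := K) (hw i))
  rwa [show χ i - (χ i - θ) = θ by abel] at this

/-- the derivative of a homogeneous function -/
theorem hf_der {χ a : Λ} {D : Derivation ℂ R R} (hD : HD 𝒜 χ D) {g : K} (hg : HF 𝒜 a g) :
    HF 𝒜 (a - χ) (xK (kd D : Derivation ℂ R K) g) := by
  obtain ⟨γ, s, hs, hs0, y, hy, e⟩ := hg
  refine ⟨γ + γ, s * s, SetLike.mul_mem_graded hs hs, mul_ne_zero hs0 hs0,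
    s * D y - y * D s, Submodule.sub_mem _ ?_ ?_, ?_⟩
  · have := SetLike.mul_mem_graded hs (hD _ _ hy)
    rwa [show γ + (γ + a - χ) = γ + γ + (a - χ) by abel] at this
  · have := SetLike.mul_mem_graded hy (hD _ _ hs)
    rwa [show γ + a + (γ - χ) = γ + γ + (a - χ) by abel] at this
  · have h1 := congrArg (xK (kd D : Derivation ℂ R K)) e
    rw [Derivation.leibniz, xK_apply, xK_apply, kd_apply, kd_apply, smul_eq_mul,
      smul_eq_mul] at h1
    rw [map_sub, map_mul, map_mul, map_mul, ← h1, ← e]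
    ring

/-- the bracket with a global homogeneous field -/
theorem hrat_br {χ θ : Λ} {D : Derivation ℂ R R} (hD : HD 𝒜 χ D) {v : Derivation ℂ R K}
    (hv : HRat 𝒜 θ v) : HRat 𝒜 (θ + χ) (br D v) := by
  obtain ⟨γ, s, hs, hs0, e⟩ := hv
  refine ⟨γ + γ, s * s, SetLike.mul_mem_graded hs hs, mul_ne_zero hs0 hs0, ?_⟩
  intro k h hh
  obtain ⟨y, hy, e1⟩ := e k h hh
  obtain ⟨z, hz, e2⟩ := e (k - χ) (D h) (hD k h hh)
  refine ⟨s * D y - y * D s - s * z, Submodule.sub_mem _ (Submodule.sub_mem _ ?_ ?_) ?_, ?_⟩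
  · have := SetLike.mul_mem_graded hs (hD _ _ hy)
    rwa [show γ + (k + γ - θ - χ) = k + (γ + γ) - (θ + χ) by abel] at this
  · have := SetLike.mul_mem_graded hy (hD _ _ hs)
    rwa [show k + γ - θ + (γ - χ) = k + (γ + γ) - (θ + χ) by abel] at this
  · have := SetLike.mul_mem_graded hs hz
    rwa [show γ + (k - χ + γ - θ) = k + (γ + γ) - (θ + χ) by abel] at this
  · have h1 := congrArg (xK (kd D : Derivation ℂ R K)) e1
    rw [Derivation.leibniz, xK_apply, xK_apply, kd_apply, kd_apply, smul_eq_mul,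
      smul_eq_mul] at h1
    rw [br_apply, map_sub, map_sub, map_mul, map_mul, map_mul, map_mul, ← h1, ← e1, ← e2]
    ring

/-- a homogeneous function regular at a fixed point, up to a unit of weight zero, is an element of
the right weight -/
theorem hf_reg {a : Λ} {g : K} (hg : HF 𝒜 a g) {q : R →ₐ[ℂ] ℂ} (hq : Fix 𝒜 q)
    (hreg : RegF q g) : ∃ s ∈ 𝒜 0, q s = 1 ∧ ∃ y ∈ 𝒜 a, algebraMap R K s * g = algebraMap R K y := by
  obtain ⟨γ, t, ht, ht0, x, hx, e⟩ := hg
  obtain ⟨r, y, hr, e'⟩ := hreg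
  have h1 : t * y = r * x := by
    apply algebraMap_inj (K := K)
    rw [map_mul, map_mul, ← e, ← e']
    ring
  -- the component of weight zero of `r`
  have h2 : t * cp 𝒜 a y = cp 𝒜 0 r * x := by
    have h3 := congrArg (fun z => cp 𝒜 (γ + a) z) h1
    simp only [cp] at h3
    have h4 : ((DirectSum.decompose 𝒜 (t * y) (γ + a) : 𝒜 (γ + a)) : R) =
        t * (DirectSum.decompose 𝒜 y a : 𝒜 a) :=
      DirectSum.coe_decompose_mul_add_of_left_mem 𝒜 ht
    have h5 : ((DirectSum.decompose 𝒜 (r * x) (0 + (γ + a)) : 𝒜 (0 + (γ + a))) : R) =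
        (DirectSum.decompose 𝒜 r 0 : 𝒜 0) * x :=
      DirectSum.coe_decompose_mul_add_of_right_mem 𝒜 hx
    rw [zero_add] at h5
    rw [h4, h5] at h3
    exact h3
  have hc : q (cp 𝒜 0 r) ≠ 0 := by rwa [hq.q_cp]
  refine ⟨(q (cp 𝒜 0 r))⁻¹ • cp 𝒜 0 r, Submodule.smul_mem _ _ (cp_mem 𝒜 0 r),
    by rw [map_smul, smul_eq_mul, inv_mul_cancel₀ hc],
    (q (cp 𝒜 0 r))⁻¹ • cp 𝒜 a y, Submodule.smul_mem _ _ (cp_mem 𝒜 a y), ?_⟩
  apply mul_left_cancel₀ (aM_ne (K := K) ht0)
  rw [← mul_assoc, mul_comm (algebraMap R K t), mul_assoc, e, ← map_mul, ← map_mul,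
    smul_mul_assoc, mul_smul_comm, h2]

/-- a homogeneous function of an impossible weight, regular at a fixed point, is zero -/
theorem hf_eq_zero [IsNoetherianRing R] {q : R →ₐ[ℂ] ℂ} (hq : Fix 𝒜 q) {n : ℕ}
    {u : Fin n → R} {wt : Fin n → Λ} (G : Gens 𝒜 q u wt) {a : Λ} {g : K} (hg : HF 𝒜 a g)
    (hreg : RegF q g) (ha : a ∉ Mon wt) : g = 0 := by
  obtain ⟨s, hs, hs1, y, hy, e⟩ := hf_reg hg hq hreg
  rw [eq_bot_of_notMem hq G ha] at hy
  rw [(Submodule.mem_bot ℂ).1 hy, map_zero] at e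
  rcases mul_eq_zero.1 e with h | h
  · have h1 : s = 0 := algebraMap_inj (K := K) (by rw [h, map_zero])
    rw [h1, map_zero] at hs1
    exact absurd hs1 zero_ne_one
  · exact h

/-- the normalised field of a homogeneous field has homogeneous coefficients -/
theorem exists_norm_hom {ι : Type} [Fintype ι] [DecidableEq ι] {χ k : ι → Λ}
    (w : ι → Derivation ℂ R R) (hw : ∀ i, HD 𝒜 (χ i) (w i)) (h : ι → R) (hh : ∀ j, h j ∈ 𝒜 (k j))
    (hdet : (dmat w h).det ≠ 0) {θ : Λ} {v : Derivation ℂ R K} (hv : HRat 𝒜 θ v) :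
    ∃ g : ι → K, (∀ i, HF 𝒜 (χ i - θ) (g i)) ∧ ∀ j, sb v g w (h j) = 0 := by
  obtain ⟨g, hg⟩ := exists_norm (K := K) w h hdet v
  refine ⟨g, ?_, hg⟩
  -- Cramer
  have hd := aM_ne (K := K) hdet
  have h1 : ∀ j, ∑ l, g l * algebraMap R K (w l (h j)) = v (h j) := by
    intro j
    have h1 := hg j
    rw [sb_apply, sub_eq_zero] at h1
    exact h1.symm
  have h2 : ∀ i, g i * algebraMap R K (dmat w h).det =
      ∑ j, v (h j) * algebraMap R K ((dmat w h).adjugate j i) := by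
    intro i
    have h2 : ∀ l, ∑ j, algebraMap R K (w l (h j)) * algebraMap R K ((dmat w h).adjugate j i) =
        if l = i then algebraMap R K (dmat w h).det else 0 := by
      intro l
      have h3 := congrFun (congrFun (Matrix.mul_adjugate (dmat w h)) l) i
      rw [Matrix.mul_apply, Matrix.smul_apply, Matrix.one_apply] at h3
      simp_rw [← map_mul]
      rw [← map_sum]
      have h4 : ∑ x, w l (h x) * (dmat w h).adjugate x i =
        (dmat w h).det • (if l = i then 1 else 0) := h3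
      rw [h4]
      split_ifs <;> simp
    calc g i * algebraMap R K (dmat w h).det
        = ∑ l, g l * ∑ j, algebraMap R K (w l (h j)) *
            algebraMap R K ((dmat w h).adjugate j i) := by
          simp_rw [h2]
          simp
      _ = ∑ j, v (h j) * algebraMap R K ((dmat w h).adjugate j i) := by
          simp_rw [← h1, Finset.sum_mul, Finset.mul_sum]
          rw [Finset.sum_comm]
          exact Finset.sum_congr rfl fun l _ => Finset.sum_congr rfl fun j _ => by ring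
  -- weights of minors
  have hdm : (dmat w h).det ∈ 𝒜 (∑ j, k j - ∑ i, χ i) := by
    rw [Matrix.det_apply]
    refine Submodule.sum_mem _ fun σ _ => ?_
    have h5 : ∏ i, (dmat w h) (σ i) i ∈ 𝒜 (∑ i, (k i - χ (σ i))) :=
      SetLike.prod_mem_graded (A := 𝒜) _ _ fun i _ => hw (σ i) _ _ (hh i)
    have h6 : ∑ i, (k i - χ (σ i)) = ∑ j, k j - ∑ i, χ i := by
      rw [Finset.sum_sub_distrib, Equiv.sum_comp σ χ]
    rw [h6] at h5
    exact (Submodule.smul_mem_iff' _ _).2 h5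
  have hadj : ∀ j i, (dmat w h).adjugate j i ∈
      𝒜 ((∑ j, k j - ∑ i, χ i) - (k j - χ i)) := by
    intro j i
    rw [Matrix.adjugate_apply, Matrix.det_apply]
    refine Submodule.sum_mem _ fun σ _ => ?_
    refine (Submodule.smul_mem_iff' _ _).2 ?_
    by_cases hσ : σ j = i
    · have h5 : ∏ l, ((dmat w h).updateRow i (Pi.single j 1)) (σ l) l ∈
          𝒜 (∑ l, if l = j then 0 else (k l - χ (σ l))) := by
        refine SetLike.prod_mem_graded (A := 𝒜) _ _ fun l _ => ?_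
        by_cases hl : l = j
        · subst hl
          rw [if_pos rfl, hσ, Matrix.updateRow_self, Pi.single_eq_same]
          exact SetLike.GradedOne.one_mem
        · rw [if_neg hl, Matrix.updateRow_ne (fun h0 => hl (σ.injective (h0.trans hσ.symm)))]
          exact hw (σ l) _ _ (hh l)
      have h6 : (∑ l, if l = j then 0 else (k l - χ (σ l))) =
          (∑ j, k j - ∑ i, χ i) - (k j - χ i) := by
        have h7 : ∀ l, (if l = j then 0 else (k l - χ (σ l))) =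
            (k l - χ (σ l)) - (if l = j then (k l - χ (σ l)) else 0) := by
          intro l
          split_ifs <;> simp
        simp_rw [h7]
        rw [Finset.sum_sub_distrib, Finset.sum_sub_distrib, Equiv.sum_comp σ χ,
          Finset.sum_ite_eq' Finset.univ j, if_pos (Finset.mem_univ j), hσ]
      rwa [h6] at h5
    · have h5 : ∏ l, ((dmat w h).updateRow i (Pi.single j 1)) (σ l) l = 0 := by
        refine Finset.prod_eq_zero (Finset.mem_univ (σ.symm i)) ?_
        rw [Equiv.apply_symm_apply, Matrix.updateRow_self, Pi.single_eq_of_ne]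
        intro h0
        exact hσ (by rw [← h0, Equiv.apply_symm_apply])
      rw [h5]
      exact Submodule.zero_mem _
  intro i
  have h3 : g i = (∑ j, v (h j) * algebraMap R K ((dmat w h).adjugate j i)) *
      (algebraMap R K 1 / algebraMap R K (dmat w h).det) := by
    rw [← h2, map_one]
    field_simp
  rw [h3]
  have h4 : HF 𝒜 (χ i - θ + (∑ j, k j - ∑ i, χ i))
      (∑ j, v (h j) * algebraMap R K ((dmat w h).adjugate j i)) := by
    refine hf_sum _ fun j _ => ?_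
    have := hf_mul (hf_apply hv (hh j)) (hf_map (K := K) (hadj j i))
    rwa [show k j - θ + ((∑ j, k j - ∑ i, χ i) - (k j - χ i)) =
      χ i - θ + (∑ j, k j - ∑ i, χ i) by abel] at this
  have h5 := hf_mul h4 (hf_div (K := K) (𝒜 := 𝒜) SetLike.GradedOne.one_mem hdm hdet)
  rwa [show χ i - θ + (∑ j, k j - ∑ i, χ i) + (0 - (∑ j, k j - ∑ i, χ i)) = χ i - θ by
    abel] at h5

end Vale.Agent.P280.H899
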